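import Crest.Agent.R241.Calc
import Crest.Agent.R174.NL

/-! Row 241, block WC: mollification of Lipschitz functions on `ℝⁿ` and the null Lagrangian identity. -/

open MeasureTheory Set Filter Topology Metric
open Crest.GeometryTopology.Submanifold (Euc)
open scoped NNReal Convolution

noncomputable section

namespace Crest.Agent.R241

variable {n : ℕ}

/-- `D (ρ ⋆ f) = ρ ⋆ D f` for Lipschitz `f` -/
theorem wc_conv {f ρ : Euc n → ℝ} {K : ℝ≥0} (hf : LipschitzWith K f) (hρ : Continuous ρ)
    (hc : HasCompactSupport ρ) (x : Euc n) :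
    HasFDerivAt (ρ ⋆[ContinuousLinearMap.lsmul ℝ ℝ, volume] f)
      ((ρ ⋆[ContinuousLinearMap.lsmul ℝ ℝ, volume] fderiv ℝ f) x) x := by
  have hi : Integrable ρ := hρ.integrable_of_hasCompactSupport hc
  have hcont : ∀ y : Euc n, Continuous fun t => ρ t • f (y - t) := fun y =>
    hρ.smul (hf.continuous.comp (continuous_const.sub continuous_id))
  have h := hasFDerivAt_integral_of_dominated_loc_of_lip' (μ := (volume : Measure (Euc n))) (𝕜 := ℝ)
    (F := fun y t => ρ t • f (y - t)) (F' := fun t => ρ t • fderiv ℝ f (x - t)) (x₀ := x)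
    (s := univ) (bound := fun t => ‖ρ t‖ * K) univ_mem
    (fun y _ => (hcont y).aestronglyMeasurable)
    ((hcont x).integrable_of_hasCompactSupport hc.smul_right)
    (hρ.measurable.smul ((measurable_fderiv ℝ f).comp
      (measurable_const.sub measurable_id))).aestronglyMeasurable
    (Eventually.of_forall fun t y _ => by
      rw [← smul_sub, norm_smul, mul_assoc]
      refine mul_le_mul_of_nonneg_left ?_ (norm_nonneg _)
      have := hf.norm_sub_le (y - t) (x - t)
      rwa [sub_sub_sub_cancel_right] at this)
    (hi.norm.mul_const _)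
    (by
      filter_upwards [(quasiMeasurePreserving_sub_left_of_right_invariant volume x).ae
        (hf.ae_differentiableAt (μ := (volume : Measure (Euc n))))] with t ht
      have h1 : HasFDerivAt (fun y : Euc n => f (y - t)) (fderiv ℝ f (x - t)) x := by
        have h2 := ht.hasFDerivAt.comp x ((hasFDerivAt_id x).sub_const t)
        rw [ContinuousLinearMap.comp_id] at h2
        exact h2
      exact h1.const_smul (ρ t))
  exact h.2

/-- mollification of a Lipschitz function -/
theorem wc_moll {f : Euc n → ℝ} {K : ℝ≥0} (hf : LipschitzWith K f) :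
    ∃ g : ℕ → Euc n → ℝ, (∀ m, ContDiff ℝ 1 (g m)) ∧ (∀ m x, ‖fderiv ℝ (g m) x‖ ≤ K) ∧
      (∀ᵐ x : Euc n, Tendsto (fun m => fderiv ℝ (g m) x) atTop (𝓝 (fderiv ℝ f x))) ∧
      ∀ (m : ℕ) x, (∀ y ∈ closedBall x 1, f y = 0) → g m x = 0 := by
  let φ : ℕ → ContDiffBump (0 : Euc n) := fun k =>
    ⟨1 / ((k : ℝ) + 1) / 2, 1 / ((k : ℝ) + 1), by positivity, half_lt_self (by positivity)⟩
  have hD := fun k x => wc_conv hf ((φ k).continuous_normed (μ := volume))
    (φ k).hasCompactSupport_normed x
  have hb : ∀ y, ‖fderiv ℝ f y‖ ≤ K := fun y => norm_fderiv_le_of_lipschitz ℝ hf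
  have hm : AEStronglyMeasurable (fderiv ℝ f) (volume : Measure (Euc n)) :=
    (measurable_fderiv ℝ f).aestronglyMeasurable
  refine ⟨fun k => convolution ((φ k).normed volume) f (ContinuousLinearMap.lsmul ℝ ℝ) volume,
    fun k => ?_, fun k x => ?_, ?_, fun k x h => ?_⟩
  · exact (φ k).hasCompactSupport_normed.contDiff_convolution_left _ (φ k).contDiff_normed
      hf.continuous.locallyIntegrable
  · rw [(hD k x).fderiv, ← dist_zero_right]
    exact dist_convolution_le K.coe_nonneg (φ k).support_normed_eq.subset (φ k).nonneg_normed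
      (φ k).integral_normed hm fun y _ => by rw [dist_zero_right]; exact hb y
  · have hl : LocallyIntegrable (fderiv ℝ f) (volume : Measure (Euc n)) :=
      (memLp_top_of_bound hm K (Eventually.of_forall hb)).locallyIntegrable le_top
    have h := ContDiffBump.ae_convolution_tendsto_right_of_locallyIntegrable (φ := φ) (l := atTop) (K := 2)
      tendsto_one_div_add_atTop_nhds_zero_nat
      (Eventually.of_forall fun k => by
        change 1 / ((k : ℝ) + 1) ≤ 2 * (1 / ((k : ℝ) + 1) / 2)
        linarith) hl
    filter_upwards [h] with x hx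
    simp only [fun k => (hD k x).fderiv]
    exact hx
  · have h0 : f x = 0 := h x (mem_closedBall_self zero_le_one)
    rw [← h0]
    refine (φ k).normed_convolution_eq_right fun y hy => ?_
    rw [h0]
    refine h y (closedBall_subset_closedBall ?_ (ball_subset_closedBall hy))
    change 1 / ((k : ℝ) + 1) ≤ 1
    exact div_le_self zero_le_one (le_add_of_nonneg_left k.cast_nonneg)

theorem wc_jac (g : Fin n → Euc n → ℝ) (z : Euc n) :
    jacE univ g z = (Matrix.of fun a j => fderiv ℝ (g a) z (EuclideanSpace.single j 1)).det := by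
  simp only [jacE, fderivWithin_univ]

theorem wc_det {g : Fin n → Euc n → ℝ} (hg : ∀ a, ContDiff ℝ 1 (g a)) (z : Euc n) :
    (fderiv ℝ (fun w => (WithLp.toLp 2 fun a => g a w : Euc n)) z).det = jacE univ g z := by
  have hd : DifferentiableAt ℝ (fun w => (WithLp.toLp 2 fun a => g a w : Euc n)) z :=
    differentiableAt_euclidean.2 fun a => (hg a).differentiable one_ne_zero z
  rw [wc_jac, ContinuousLinearMap.det, ← LinearMap.det_toMatrix (EuclideanSpace.basisFun (Fin n) ℝ).toBasis]
  congr 1
  ext a j
  have h1 := ((EuclideanSpace.proj (𝕜 := ℝ) a).hasFDerivAt.comp z hd.hasFDerivAt).fderiv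
  rw [LinearMap.toMatrix_apply, Matrix.of_apply, show g a = (EuclideanSpace.proj (𝕜 := ℝ) a) ∘
    fun w => (WithLp.toLp 2 fun a => g a w : Euc n) from rfl, h1]
  simp

theorem wc_zero {g : Fin n → Euc n → ℝ} {a₀ : Fin n} {z : Euc n} (h : fderiv ℝ (g a₀) z = 0) :
    jacE univ g z = 0 := by
  rw [wc_jac]
  exact Matrix.det_eq_zero_of_row_eq_zero a₀ fun j => by simp [h]

theorem wc_smooth {g : Fin n → Euc n → ℝ} (hg : ∀ a, ContDiff ℝ 1 (g a)) (a₀ : Fin n) {K : Set (Euc n)}
    (hK : IsCompact K) (h0 : ∀ x, x ∉ K → g a₀ x = 0) : ∫ z in K, jacE univ g z = 0 := by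
  have hg' : ∀ a, ContDiff ℝ 1 (Function.update g a₀ (fun _ => 0) a) := fun a => by
    rcases eq_or_ne a a₀ with rfl | h
    · rw [Function.update_self]
      exact contDiff_const
    · rw [Function.update_of_ne h]
      exact hg a
  have h := Crest.Agent.R174.nl (volume : Measure (Euc n))
    (f := fun w => (WithLp.toLp 2 fun a => g a w : Euc n))
    (g := fun w => (WithLp.toLp 2 fun a => Function.update g a₀ (fun _ => 0) a w : Euc n))
    (contDiff_euclidean.2 hg) (contDiff_euclidean.2 hg') hK (fun x hx => by
      congr 1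
      funext a
      rcases eq_or_ne a a₀ with rfl | h
      · rw [Function.update_self, h0 x hx]
      · rw [Function.update_of_ne h]) (φ := fun _ => 1) continuous_const
  simp only [one_mul, wc_det hg, wc_det hg'] at h
  rw [h]
  have : ∀ z, jacE univ (Function.update g a₀ fun _ => 0) z = 0 := fun z =>
    wc_zero (a₀ := a₀) (by rw [Function.update_self]; exact fderiv_const_apply 0)
  simp only [this, integral_zero]

theorem wc_nl (g : Fin n → Euc n → ℝ) {L : ℝ≥0} (hg : ∀ a, LipschitzWith L (g a)) (a₀ : Fin n)
    (h0 : HasCompactSupport (g a₀)) : ∫ z, jacE univ g z = 0 := by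
  choose G hG hGb hGl hG0 using fun a => wc_moll (hg a)
  have hK : IsCompact (cthickening 1 (tsupport (g a₀))) := h0.isCompact.cthickening
  have h1 : ∀ m, ∫ z in cthickening 1 (tsupport (g a₀)), jacE univ (fun a => G a m) z = 0 := fun m =>
    wc_smooth (fun a => hG a m) a₀ hK fun x hx => hG0 a₀ m x fun y hy => by
      by_contra h
      exact hx (mem_cthickening_of_dist_le x y 1 _ (subset_tsupport _ h) (mem_closedBall'.1 hy))
  rw [← setIntegral_eq_integral_of_forall_compl_eq_zero (s := cthickening 1 (tsupport (g a₀)))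
    fun x hx => wc_zero (a₀ := a₀) ?_]
  · haveI : IsFiniteMeasure (volume.restrict (cthickening 1 (tsupport (g a₀)))) :=
      isFiniteMeasure_restrict.2 hK.measure_lt_top.ne
    have h2 := tendsto_integral_of_dominated_convergence
      (μ := volume.restrict (cthickening 1 (tsupport (g a₀))))
      (F := fun m z => jacE univ (fun a => G a m) z) (f := jacE univ g)
      (fun _ => (Fintype.card (Fin n)).factorial • (L : ℝ) ^ Fintype.card (Fin n)) (fun m => ?_)
      (integrable_const _) (fun m => Eventually.of_forall fun z => ?_) (ae_restrict_of_ae ?_)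
    · simp only [h1] at h2
      exact tendsto_nhds_unique h2 tendsto_const_nhds
    · refine Continuous.aestronglyMeasurable ?_
      simp only [wc_jac]
      exact Continuous.matrix_det (continuous_matrix fun a j =>
        ((hG a m).continuous_fderiv one_ne_zero).clm_apply continuous_const)
    · rw [wc_jac]
      refine Matrix.det_le (abv := AbsoluteValue.abs) fun a j => ?_
      refine ((fderiv ℝ (G a m) z).le_opNorm _).trans ?_
      simpa using hGb a m z
    · filter_upwards [ae_all_iff.2 hGl] with z hz
      simp only [wc_jac]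
      refine ((Continuous.matrix_det continuous_id).tendsto _).comp ?_
      refine tendsto_pi_nhds.2 fun a => tendsto_pi_nhds.2 fun j => ?_
      exact ((ContinuousLinearMap.apply ℝ ℝ (EuclideanSpace.single j (1 : ℝ))).continuous.tendsto _).comp (hz a)
  · by_contra h
    exact hx (self_subset_cthickening _ (support_fderiv_subset ℝ h))

end Crest.Agent.R241
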